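import Mathlib

/-! # P324: instances with many isolated jobs -/

namespace Vale.Agent.Results.P324.ManyIsolated

open Finset

/-- `τ` is a schedule of length `T` (slots `0, …, T-1`) on `m` machines -/
structure IsSchedule {V : Type} [Fintype V] (E : V → V → Prop) (m T : ℕ) (τ : V → ℕ) : Prop where
  lt : ∀ v, τ v < T
  cap : ∀ t, Nat.card {v // τ v = t} ≤ m
  prec : ∀ u v, E u v → τ u < τ v

variable {V : Type} [Fintype V] [DecidableEq V]

theorem block (S : Finset V) {m : ℕ} (hm : 0 < m) (T : ℕ) : ∃ σ : V → ℕ,
    (∀ v ∈ S, T ≤ σ v ∧ σ v < T + (S.card + m - 1) / m) ∧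
      ∀ t, (S.filter fun v => σ v = t).card ≤ m := by
  classical
  let e := S.equivFin
  let f : V → ℕ := fun v => if h : v ∈ S then (e ⟨v, h⟩).1 else 0
  have hf : ∀ v ∈ S, f v < S.card := by
    intro v hv
    simp only [f, dif_pos hv]
    exact (e ⟨v, hv⟩).2
  have hinj : ∀ v ∈ S, ∀ w ∈ S, f v = f w → v = w := by
    intro v hv w hw h
    simp only [f, dif_pos hv, dif_pos hw] at h
    have := e.injective (Fin.ext h)
    exact congrArg Subtype.val this
  refine ⟨fun v => T + f v / m, fun v hv => ⟨Nat.le_add_right _ _, ?_⟩, fun t => ?_⟩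
  · have h1 := hf v hv
    have h2 : S.card ≤ m * ((S.card + m - 1) / m) := by
      have h3 := Nat.div_add_mod (S.card + m - 1) m
      have h4 := Nat.mod_lt (S.card + m - 1) hm
      omega
    have h3 : f v / m < (S.card + m - 1) / m := Nat.div_lt_of_lt_mul (h1.trans_le h2)
    show T + f v / m < _
    omega
  · have h1 : (S.filter fun v => T + f v / m = t).card ≤
        (Finset.Ico (m * (t - T)) (m * (t - T) + m)).card := by
      refine Finset.card_le_card_of_injOn f ?_ ?_
      · intro v hv
        have h2 : T + f v / m = t := (Finset.mem_filter.1 hv).2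
        have h3 : f v / m = t - T := by
          generalize f v / m = z at h2 ⊢
          omega
        have h4 := Nat.div_add_mod (f v) m
        have h5 := Nat.mod_lt (f v) hm
        rw [h3] at h4
        simp only [Finset.coe_Ico, Set.mem_Ico]
        omega
      · intro v hv w hw h
        exact hinj v (Finset.mem_filter.1 hv).1 w (Finset.mem_filter.1 hw).1 h
    simpa using h1

theorem levels (E : V → V → Prop) {m : ℕ} (hm : 0 < m) (lev : V → ℕ)
    (hE : ∀ u v, E u v → lev u < lev v) (I : Finset V) {H : ℕ} (hI : (m - 1) * H ≤ I.card) :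
    ∀ h ≤ H, ∃ (J : Finset V) (T : ℕ) (τ : V → ℕ), J ⊆ I ∧ J.card ≤ (m - 1) * h ∧
      m * T = (univ.filter fun v => v ∉ I ∧ lev v < h).card + J.card ∧
      (∀ v ∈ (univ.filter fun v => v ∉ I ∧ lev v < h) ∪ J, τ v < T) ∧
      (∀ t, (((univ.filter fun v => v ∉ I ∧ lev v < h) ∪ J).filter fun v => τ v = t).card ≤ m) ∧
      ∀ u v, u ∉ I → v ∉ I → lev v < h → E u v → τ u < τ v := by
  intro h
  induction h with
  | zero =>
    intro _
    refine ⟨∅, 0, fun _ => 0, by simp, by simp, by simp, by simp, by simp, ?_⟩
    intro u v _ _ hv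
    omega
  | succ h ih =>
    intro hH
    obtain ⟨J, T, τ, hJ, hJc, hT, hlt, hcap, hpr⟩ := ih (by omega)
    set A := univ.filter fun v => v ∉ I ∧ lev v < h with hA
    set L := univ.filter fun v => v ∉ I ∧ lev v = h with hL
    have hAL : (univ.filter fun v => v ∉ I ∧ lev v < h + 1) = A ∪ L := by
      ext v
      simp only [hA, hL, mem_filter, mem_univ, true_and, mem_union]
      constructor
      · rintro ⟨h1, h2⟩
        rcases Nat.lt_succ_iff_lt_or_eq.1 h2 with h3 | h3
        · exact Or.inl ⟨h1, h3⟩
        · exact Or.inr ⟨h1, h3⟩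
      · rintro (⟨h1, h2⟩ | ⟨h1, h2⟩)
        · exact ⟨h1, by omega⟩
        · exact ⟨h1, by omega⟩
    have hdAL : Disjoint A L := by
      rw [Finset.disjoint_left]
      intro v h1 h2
      simp only [hA, hL, mem_filter] at h1 h2
      omega
    obtain ⟨r, hr1, q, hq⟩ : ∃ r : ℕ, r ≤ m - 1 ∧ ∃ q, L.card + r = m * q := by
      refine ⟨m * ((L.card + m - 1) / m) - L.card, ?_, (L.card + m - 1) / m, ?_⟩
      · have h3 := Nat.div_add_mod (L.card + m - 1) m
        omega
      · have h3 := Nat.div_add_mod (L.card + m - 1) m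
        have h4 := Nat.mod_lt (L.card + m - 1) hm
        omega
    have hav : r ≤ (I \ J).card := by
      rw [Finset.card_sdiff_of_subset hJ]
      have h1 : (m - 1) * (h + 1) ≤ (m - 1) * H := Nat.mul_le_mul_left _ hH
      rw [Nat.mul_succ] at h1
      omega
    obtain ⟨J', hJ', hJ'c⟩ := Finset.exists_subset_card_eq hav
    have hJ'I : ∀ v ∈ J', v ∈ I ∧ v ∉ J := fun v hv => Finset.mem_sdiff.1 (hJ' hv)
    have hdLJ : Disjoint L J' := by
      rw [Finset.disjoint_left]
      intro v h1 h2
      simp only [hL, mem_filter] at h1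
      exact h1.2.1 (hJ'I v h2).1
    have hdJJ : Disjoint J J' := by
      rw [Finset.disjoint_left]
      intro v h1 h2
      exact (hJ'I v h2).2 h1
    obtain ⟨σ, hσ1, hσ2⟩ := block (L ∪ J') hm T
    have hSc : (L ∪ J').card = m * q := by
      rw [Finset.card_union_of_disjoint hdLJ, hJ'c, hq]
    have hdiv : ((L ∪ J').card + m - 1) / m = q := by
      rw [hSc]
      rw [show m * q + m - 1 = (m - 1) + m * q by omega, Nat.add_mul_div_left _ _ hm,
        Nat.div_eq_of_lt (by omega)]
      omega
    rw [hdiv] at hσ1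
    have hAS : ∀ v, v ∈ A ∪ J → v ∉ L ∪ J' := by
      intro v h1 h2
      rcases Finset.mem_union.1 h1 with h1 | h1 <;> rcases Finset.mem_union.1 h2 with h2 | h2
      · exact Finset.disjoint_left.1 hdAL h1 h2
      · simp only [hA, mem_filter] at h1
        exact h1.2.1 (hJ'I v h2).1
      · simp only [hL, mem_filter] at h2
        exact h2.2.1 (hJ h1)
      · exact Finset.disjoint_left.1 hdJJ h1 h2
    refine ⟨J ∪ J', T + q, fun v => if v ∈ L ∪ J' then σ v else τ v,
      Finset.union_subset hJ fun v hv => (hJ'I v hv).1, ?_, ?_, ?_, ?_, ?_⟩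
    · rw [Finset.card_union_of_disjoint hdJJ, Nat.mul_succ]
      omega
    · rw [hAL, Finset.card_union_of_disjoint hdAL, Finset.card_union_of_disjoint hdJJ, Nat.mul_add]
      omega
    · intro v hv
      rw [hAL] at hv
      by_cases hS : v ∈ L ∪ J'
      · simp only [hS, if_true]
        exact (hσ1 v hS).2
      · simp only [hS, if_false]
        have : v ∈ A ∪ J := by
          simp only [Finset.mem_union] at hv hS ⊢
          tauto
        exact (hlt v this).trans_le (Nat.le_add_right _ _)
    · intro t
      rw [hAL]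
      by_cases ht : t < T
      · refine le_trans (Finset.card_le_card ?_) (hcap t)
        intro v hv
        obtain ⟨hv1, hv2⟩ := Finset.mem_filter.1 hv
        beta_reduce at hv2
        by_cases hS : v ∈ L ∪ J'
        · rw [if_pos hS] at hv2
          have := (hσ1 v hS).1
          omega
        · rw [if_neg hS] at hv2
          refine Finset.mem_filter.2 ⟨?_, hv2⟩
          simp only [Finset.mem_union] at hv1 hS ⊢
          tauto
      · refine le_trans (Finset.card_le_card ?_) (hσ2 t)
        intro v hv
        obtain ⟨hv1, hv2⟩ := Finset.mem_filter.1 hv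
        beta_reduce at hv2
        by_cases hS : v ∈ L ∪ J'
        · rw [if_pos hS] at hv2
          exact Finset.mem_filter.2 ⟨hS, hv2⟩
        · rw [if_neg hS] at hv2
          have : v ∈ A ∪ J := by
            simp only [Finset.mem_union] at hv1 hS ⊢
            tauto
          have := hlt v this
          omega
    · intro u v hu hv hvh huv
      have hl := hE u v huv
      have huA : u ∈ A ∪ J := Finset.mem_union_left _ (by
        simp only [hA, mem_filter, mem_univ, true_and]
        exact ⟨hu, by omega⟩)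
      beta_reduce
      rw [if_neg (hAS u huA)]
      by_cases hS : v ∈ L ∪ J'
      · rw [if_pos hS]
        exact (hlt u huA).trans_le (hσ1 v hS).1
      · rw [if_neg hS]
        refine hpr u v hu hv ?_ huv
        by_contra hcon
        apply hS
        refine Finset.mem_union_left _ ?_
        simp only [hL, mem_filter, mem_univ, true_and]
        exact ⟨hv, by omega⟩

theorem exists_schedule (E : V → V → Prop) {m : ℕ} (hm : 0 < m) (lev : V → ℕ) {H : ℕ}
    (hE : ∀ u v, E u v → lev u < lev v) (hlev : ∀ v, lev v < H) (I : Finset V)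
    (hiso : ∀ u v, E u v → u ∉ I ∧ v ∉ I) (hI : (m - 1) * H ≤ I.card) :
    ∃ τ, IsSchedule E m ((Fintype.card V + m - 1) / m) τ := by
  obtain ⟨J, T, τ, hJ, hJc, hT, hlt, hcap, hpr⟩ := levels E hm lev hE I hI H le_rfl
  have hA : (univ.filter fun v => v ∉ I ∧ lev v < H) = Iᶜ := by
    ext v
    simp [hlev v]
  rw [hA] at hT hlt hcap
  obtain ⟨σ, hσ1, hσ2⟩ := block (I \ J) hm T
  have hcard : Fintype.card V = m * T + (I \ J).card := by
    rw [hT, Finset.card_sdiff_of_subset hJ, Finset.card_compl]
    have h1 := Finset.card_le_card hJ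
    have h2 := Finset.card_le_univ I
    omega
  have hTq : (Fintype.card V + m - 1) / m = T + ((I \ J).card + m - 1) / m := by
    rw [hcard, show m * T + (I \ J).card + m - 1 = ((I \ J).card + m - 1) + m * T by omega,
      Nat.add_mul_div_left _ _ hm]
    omega
  have hmem : ∀ v, v ∉ I \ J → v ∈ Iᶜ ∪ J := by
    intro v hv
    simp only [Finset.mem_sdiff, Finset.mem_union, Finset.mem_compl] at hv ⊢
    tauto
  refine ⟨fun v => if v ∈ I \ J then σ v else τ v, fun v => ?_, fun t => ?_, fun u v huv => ?_⟩
  · rw [hTq]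
    by_cases hS : v ∈ I \ J
    · simp only [hS, if_true]
      exact (hσ1 v hS).2
    · simp only [hS, if_false]
      exact (hlt v (hmem v hS)).trans_le (Nat.le_add_right _ _)
  · rw [Nat.card_eq_fintype_card, Fintype.card_subtype]
    by_cases ht : t < T
    · refine le_trans (Finset.card_le_card ?_) (hcap t)
      intro v hv
      obtain ⟨_, hv2⟩ := Finset.mem_filter.1 hv
      beta_reduce at hv2
      by_cases hS : v ∈ I \ J
      · rw [if_pos hS] at hv2
        have := (hσ1 v hS).1
        omega
      · rw [if_neg hS] at hv2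
        exact Finset.mem_filter.2 ⟨hmem v hS, hv2⟩
    · refine le_trans (Finset.card_le_card ?_) (hσ2 t)
      intro v hv
      obtain ⟨_, hv2⟩ := Finset.mem_filter.1 hv
      beta_reduce at hv2
      by_cases hS : v ∈ I \ J
      · rw [if_pos hS] at hv2
        exact Finset.mem_filter.2 ⟨hS, hv2⟩
      · rw [if_neg hS] at hv2
        have := hlt v (hmem v hS)
        omega
  · obtain ⟨hu, hv⟩ := hiso u v huv
    have h1 : u ∉ I \ J := fun h => hu (Finset.mem_sdiff.1 h).1
    have h2 : v ∉ I \ J := fun h => hv (Finset.mem_sdiff.1 h).1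
    simp only [h1, h2, if_false]
    exact hpr u v hu hv (hlev v) huv

/-- the least length of a schedule -/
noncomputable def opt {V : Type} [Fintype V] (E : V → V → Prop) (m : ℕ) : ℕ :=
  sInf {T | ∃ τ, IsSchedule E m T τ}

theorem card_le_of_schedule (E : V → V → Prop) {m T : ℕ} {τ : V → ℕ} (h : IsSchedule E m T τ) :
    Fintype.card V ≤ m * T := by
  classical
  have h1 : (univ : Finset V).card = ∑ t ∈ range T, (univ.filter fun v => τ v = t).card :=
    Finset.card_eq_sum_card_fiberwise fun v _ => by simpa using h.lt v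
  rw [← Finset.card_univ, h1]
  calc ∑ t ∈ range T, (univ.filter fun v => τ v = t).card ≤ ∑ _t ∈ range T, m := by
        refine Finset.sum_le_sum fun t _ => ?_
        have h2 := h.cap t
        rwa [Nat.card_eq_fintype_card, Fintype.card_subtype] at h2
    _ = m * T := by rw [Finset.sum_const, card_range, smul_eq_mul, mul_comm]

omit [DecidableEq V] in
/-- If the precedence graph has a grading with `H` levels (longest path with at most `H` jobs) and at
least `(m-1) H` isolated jobs, the optimum is `⌈n/m⌉`. -/
theorem result (E : V → V → Prop) {m : ℕ} (hm : 0 < m) (lev : V → ℕ) {H : ℕ}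
    (hE : ∀ u v, E u v → lev u < lev v) (hlev : ∀ v, lev v < H)
    (hI : (m - 1) * H ≤ Nat.card {v // ∀ w, ¬ E v w ∧ ¬ E w v}) :
    (∃ τ, IsSchedule E m ((Fintype.card V + m - 1) / m) τ) ∧
      opt E m = (Fintype.card V + m - 1) / m := by
  classical
  have h1 : ∃ τ, IsSchedule E m ((Fintype.card V + m - 1) / m) τ := by
    refine exists_schedule E hm lev hE hlev (univ.filter fun v => ∀ w, ¬ E v w ∧ ¬ E w v) ?_ ?_
    · intro u v huv
      simp only [mem_filter, mem_univ, true_and]
      exact ⟨fun h => (h v).1 huv, fun h => (h u).2 huv⟩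
    · rwa [Nat.card_eq_fintype_card, Fintype.card_subtype] at hI
  refine ⟨h1, le_antisymm (Nat.sInf_le h1) ?_⟩
  refine le_csInf ⟨_, h1⟩ ?_
  rintro T ⟨τ, hτ⟩
  have h2 := card_le_of_schedule E hτ
  have h3 : (Fintype.card V + m - 1) / m < T + 1 := by
    refine Nat.div_lt_of_lt_mul ?_
    rw [Nat.mul_add]
    omega
  omega

end Vale.Agent.Results.P324.ManyIsolated
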